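import Mathlib.Analysis.VonNeumannAlgebra.Basic
import Mathlib.Analysis.Complex.PhragmenLindelof
import Mathlib.Analysis.Complex.LocallyUniformLimit
import Mathlib.Analysis.Complex.ReImTopology
import Mathlib.Analysis.InnerProductSpace.Dual
import Mathlib.Analysis.Calculus.Deriv.Star
import Mathlib.Analysis.Complex.Convex

/-!
# A one-parameter unitary group with isometric imaginary time value is trivial

`W t` is a one-parameter group of unitaries of a Hilbert space, `T` is an isometry, and for `k`, `y`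
in dense sets `t ↦ ⟨y, W t k⟩` continues to the strip `-1/2 < Im z < 0`, bounded, with values
`⟨y, W t (T k)⟩` at `t - i/2`. Then `W t = 1`. By Phragmen and Lindelöf the continuation exists for
all `k`, `y`; it defines contractions `W (-i s)`, which are self-adjoint and form a semigroup, and
which are isometric because `W (-i/2) = T` is; so `W (-2 i s) = W (-i s)² = 1`.
-/

open Filter Topology Set

namespace Vale.Agent.P352.BW.H48

noncomputable section

/-- The strip. -/
def Sp (a : ℝ) : Set ℂ := {z | -a < z.im ∧ z.im < 0}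

theorem isOpen_Sp (a : ℝ) : IsOpen (Sp a) :=
  (isOpen_lt continuous_const Complex.continuous_im).inter
    (isOpen_lt Complex.continuous_im continuous_const)

theorem mem_cl {a : ℝ} (ha : 0 < a) {z : ℂ} : z ∈ closure (Sp a) ↔ -a ≤ z.im ∧ z.im ≤ 0 := by
  have h : Sp a = Complex.im ⁻¹' Ioo (-a) 0 := rfl
  rw [h, Complex.closure_preimage_im, closure_Ioo (by linarith)]
  rfl

/-- Bounded on the closed strip. -/
def Bd (a : ℝ) (f : ℂ → ℂ) : Prop := ∃ C, ∀ z : ℂ, -a ≤ z.im → z.im ≤ 0 → ‖f z‖ ≤ C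

theorem Bd.sub {a : ℝ} {f g : ℂ → ℂ} (hf : Bd a f) (hg : Bd a g) :
    Bd a (fun z => f z - g z) := by
  obtain ⟨C1, h1⟩ := hf
  obtain ⟨C2, h2⟩ := hg
  exact ⟨C1 + C2, fun z hz hz' => (norm_sub_le _ _).trans (add_le_add (h1 z hz hz') (h2 z hz hz'))⟩

theorem Bd.add {a : ℝ} {f g : ℂ → ℂ} (hf : Bd a f) (hg : Bd a g) :
    Bd a (fun z => f z + g z) := by
  obtain ⟨C1, h1⟩ := hf
  obtain ⟨C2, h2⟩ := hg
  exact ⟨C1 + C2, fun z hz hz' => (norm_add_le _ _).trans (add_le_add (h1 z hz hz') (h2 z hz hz'))⟩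

theorem strip_le {a m : ℝ} (ha : 0 < a) {f : ℂ → ℂ} (hf : DiffContOnCl ℂ f (Sp a)) (hb : Bd a f)
    (h0 : ∀ t : ℝ, ‖f t‖ ≤ m) (h1 : ∀ t : ℝ, ‖f (t - a * Complex.I)‖ ≤ m) {z : ℂ}
    (hz : -a ≤ z.im) (hz' : z.im ≤ 0) : ‖f z‖ ≤ m := by
  obtain ⟨C, hC⟩ := hb
  refine PhragmenLindelof.horizontal_strip (a := -a) (b := 0) hf ?_ ?_ ?_ hz hz'
  · refine ⟨0, div_pos Real.pi_pos (by linarith), 0, ?_⟩
    refine Asymptotics.IsBigO.of_bound C ?_
    filter_upwards [mem_inf_of_right (mem_principal_self _)] with w hw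
    have h2 := hC w hw.1.le hw.2.le
    simpa using h2
  · intro w hw
    have h2 : w = (w.re : ℂ) - a * Complex.I := by
      apply Complex.ext <;> simp [hw]
    rw [h2]
    exact h1 _
  · intro w hw
    have h2 : w = (w.re : ℂ) := by
      apply Complex.ext <;> simp [hw]
    rw [h2]
    exact h0 _

/-- A bounded analytic function on the strip which vanishes on the real line is zero. -/
theorem zero_of {a : ℝ} (ha : 0 < a) {d : ℂ → ℂ} (hd : DiffContOnCl ℂ d (Sp a)) (hb : Bd a d)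
    (h : ∀ t : ℝ, d t = 0) {z : ℂ} (hz : -a ≤ z.im) (hz' : z.im ≤ 0) : d z = 0 := by
  have hin : ∀ w : ℂ, -a < w.im → w.im ≤ 0 → d w = 0 := by
    intro w hw hw'
    obtain ⟨C, hC⟩ := hb
    have hC0 : 0 ≤ C := (norm_nonneg _).trans (hC w hw.le hw')
    have hle : ∀ l : ℝ, ‖d w‖ ≤ C * Real.exp (-((a + w.im) * l)) := by
      intro l
      have hnorm : ∀ u : ℂ, ‖Complex.exp (-Complex.I * l * u)‖ = Real.exp (l * u.im) := by
        intro u
        rw [Complex.norm_exp]
        congr 1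
        simp [mul_assoc]
      have h3 := strip_le (m := C * Real.exp (l * -a)) ha
        (f := fun u => Complex.exp (-Complex.I * l * u) * d u) ?_ ?_ ?_ ?_ hw.le hw'
      · simp only [norm_mul, hnorm] at h3
        have h4 : ‖d w‖ = Real.exp (-(l * w.im)) * (Real.exp (l * w.im) * ‖d w‖) := by
          rw [← mul_assoc, ← Real.exp_add, neg_add_cancel, Real.exp_zero, one_mul]
        rw [h4]
        calc Real.exp (-(l * w.im)) * (Real.exp (l * w.im) * ‖d w‖)
            ≤ Real.exp (-(l * w.im)) * (C * Real.exp (l * -a)) := by gcongr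
          _ = C * (Real.exp (-(l * w.im)) * Real.exp (l * -a)) := by ring
          _ = C * Real.exp (-((a + w.im) * l)) := by
              rw [← Real.exp_add]
              congr 2
              ring
      · have h4 : DiffContOnCl ℂ (fun u : ℂ => Complex.exp (-Complex.I * l * u)) (Sp a) := by
          refine Differentiable.diffContOnCl ?_
          fun_prop
        exact h4.smul hd
      · refine ⟨Real.exp (|l| * a) * C, fun u hu hu' => ?_⟩
        rw [norm_mul, hnorm]
        refine mul_le_mul ?_ (hC u hu hu') (norm_nonneg _) (Real.exp_pos _).le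
        rw [Real.exp_le_exp]
        have h5 : |u.im| ≤ a := abs_le.2 ⟨hu, hu'.trans ha.le⟩
        calc l * u.im ≤ |l * u.im| := le_abs_self _
          _ = |l| * |u.im| := abs_mul _ _
          _ ≤ |l| * a := by gcongr
      · intro t
        rw [h t, mul_zero, norm_zero]
        positivity
      · intro t
        rw [norm_mul, hnorm]
        have h5 : ((t : ℂ) - a * Complex.I).im = -a := by simp
        rw [h5, mul_comm]
        refine mul_le_mul_of_nonneg_right (hC _ ?_ ?_) (Real.exp_pos _).le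
        · rw [h5]
        · rw [h5]; linarith
    have h6 : Tendsto (fun l : ℝ => C * Real.exp (-((a + w.im) * l))) atTop (𝓝 (C * 0)) := by
      refine Tendsto.const_mul C ?_
      refine Real.tendsto_exp_atBot.comp ?_
      refine tendsto_neg_atTop_atBot.comp ?_
      exact tendsto_id.const_mul_atTop (by linarith)
    rw [mul_zero] at h6
    have h7 : ‖d w‖ ≤ 0 := ge_of_tendsto' h6 hle
    exact norm_le_zero_iff.1 h7
  rcases eq_or_lt_of_le hz with h1 | h1
  · have hzc : z ∈ closure (Sp a) := (mem_cl ha).2 ⟨hz, hz'⟩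
    have h2 : Tendsto d (𝓝[Sp a] z) (𝓝 (d z)) :=
      ((hd.continuousOn z hzc).mono subset_closure)
    have h3 : Tendsto d (𝓝[Sp a] z) (𝓝 0) := by
      refine tendsto_const_nhds.congr' ?_
      filter_upwards [self_mem_nhdsWithin] with w hw
      exact (hin w hw.1 hw.2.le).symm
    have : (𝓝[Sp a] z).NeBot := mem_closure_iff_nhdsWithin_neBot.1 hzc
    exact tendsto_nhds_unique h2 h3
  · exact hin z h1 hz'

theorem uniq {a : ℝ} (ha : 0 < a) {f g : ℂ → ℂ} (hf : DiffContOnCl ℂ f (Sp a))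
    (hg : DiffContOnCl ℂ g (Sp a)) (hfb : Bd a f) (hgb : Bd a g) (h : ∀ t : ℝ, f t = g t) {z : ℂ}
    (hz : -a ≤ z.im) (hz' : z.im ≤ 0) : f z = g z :=
  sub_eq_zero.1 (zero_of ha (hf.sub hg) (hfb.sub hgb) (fun t => sub_eq_zero.2 (h t)) hz hz')

variable {H : Type*} [NormedAddCommGroup H] [InnerProductSpace ℂ H]

/-- A one-parameter group of isometries and an isometry. -/
structure Hy (W : ℝ → H → H) (T : H → H) : Prop where
  inn : ∀ t x y, inner ℂ (W t x) (W t y) = inner ℂ x y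
  add : ∀ s t x, W (s + t) x = W s (W t x)
  tin : ∀ x y, inner ℂ (T x) (T y) = inner ℂ x y

/-- The continuation of the matrix coefficient. -/
structure Pr (W : ℝ → H → H) (T : H → H) (y k : H) (F : ℂ → ℂ) : Prop where
  dc : DiffContOnCl ℂ F (Sp (1 / 2))
  bd : Bd (1 / 2) F
  re : ∀ t : ℝ, F t = inner ℂ y (W t k)
  lo : ∀ t : ℝ, F (t - Complex.I / 2) = inner ℂ y (W t (T k))

theorem norm_of_inn {A : H → H} (h : ∀ x y, inner ℂ (A x) (A y) = inner ℂ x y) (x : H) :
    ‖A x‖ = ‖x‖ := by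
  have h1 : ‖A x‖ ^ 2 = ‖x‖ ^ 2 := by
    rw [← inner_self_eq_norm_sq (𝕜 := ℂ), ← inner_self_eq_norm_sq (𝕜 := ℂ), h]
  exact (sq_eq_sq₀ (norm_nonneg _) (norm_nonneg _)).1 h1

theorem sub_of_inn {A : H → H} (h : ∀ x y, inner ℂ (A x) (A y) = inner ℂ x y) (x y : H) :
    ‖A x - A y‖ = ‖x - y‖ := by
  have h1 : ‖A x - A y‖ ^ 2 = ‖x - y‖ ^ 2 := by
    rw [@norm_sub_sq ℂ, @norm_sub_sq ℂ, h, norm_of_inn h, norm_of_inn h]
  exact (sq_eq_sq₀ (norm_nonneg _) (norm_nonneg _)).1 h1

theorem half (t : ℝ) : (t : ℂ) - ((1 / 2 : ℝ) : ℂ) * Complex.I = t - Complex.I / 2 := by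
  push_cast
  ring

variable {W : ℝ → H → H} {T : H → H}

theorem Hy.zero (h : Hy W T) (x : H) : W 0 x = x := by
  have h1 : W 0 (W 0 x) = W 0 x := by rw [← h.add, add_zero]
  have h2 := sub_of_inn (h.inn 0) (W 0 x) x
  rw [h1, sub_self, norm_zero] at h2
  exact sub_eq_zero.1 (norm_eq_zero.1 h2.symm)

theorem Hy.adj (h : Hy W T) (t : ℝ) (x y : H) :
    inner ℂ (W (-t) y) x = inner ℂ y (W t x) := by
  rw [← h.inn t (W (-t) y) x, ← h.add, add_neg_cancel, h.zero]

theorem Pr.le (h : Hy W T) {y k : H} {F : ℂ → ℂ} (hF : Pr W T y k F) {z : ℂ}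
    (hz : -(1 / 2) ≤ z.im) (hz' : z.im ≤ 0) : ‖F z‖ ≤ ‖y‖ * ‖k‖ := by
  refine strip_le (by norm_num) hF.dc hF.bd (fun t => ?_) (fun t => ?_) hz hz'
  · rw [hF.re]
    refine (norm_inner_le_norm _ _).trans ?_
    rw [norm_of_inn (h.inn t)]
  · rw [half, hF.lo]
    refine (norm_inner_le_norm _ _).trans ?_
    rw [norm_of_inn (h.inn t), norm_of_inn h.tin]

theorem Pr.congr_re {y k y' k' : H} {F F' : ℂ → ℂ} (hF : Pr W T y k F) (hF' : Pr W T y' k' F')
    (he : ∀ t : ℝ, F t = F' t) {z : ℂ} (hz : -(1 / 2) ≤ z.im) (hz' : z.im ≤ 0) : F z = F' z :=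
  uniq (by norm_num) hF.dc hF'.dc hF.bd hF'.bd he hz hz'

theorem lim (h : Hy W T) {y k : ℕ → H} {y0 k0 : H} (hy : Tendsto y atTop (𝓝 y0))
    (hk : Tendsto k atTop (𝓝 k0)) (hF : ∀ n, ∃ F, Pr W T (y n) (k n) F) :
    ∃ F, Pr W T y0 k0 F := by
  choose F hF using hF
  have hd : ∀ n m (z : ℂ), -(1 / 2) ≤ z.im → z.im ≤ 0 →
      ‖F n z - F m z‖ ≤ ‖y n - y m‖ * ‖k n‖ + ‖y m‖ * ‖k n - k m‖ := by
    intro n m z hz hz'
    have key : ∀ u v : H, ‖inner ℂ (y n) u - inner ℂ (y m) v‖ ≤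
        ‖y n - y m‖ * ‖u‖ + ‖y m‖ * ‖u - v‖ := by
      intro u v
      have h1 : inner ℂ (y n) u - inner ℂ (y m) v =
          inner ℂ (y n - y m) u + inner ℂ (y m) (u - v) := by
        rw [inner_sub_left, inner_sub_right]
        ring
      rw [h1]
      exact (norm_add_le _ _).trans (add_le_add (norm_inner_le_norm _ _) (norm_inner_le_norm _ _))
    refine strip_le (a := 1 / 2) (by norm_num) (f := fun z => F n z - F m z)
      ((hF n).dc.sub (hF m).dc) ((hF n).bd.sub (hF m).bd) (fun t => ?_) (fun t => ?_) hz hz'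
    · have h1 := key (W t (k n)) (W t (k m))
      rw [norm_of_inn (h.inn t), sub_of_inn (h.inn t)] at h1
      show ‖F n t - F m t‖ ≤ _
      rw [(hF n).re, (hF m).re]
      exact h1
    · have h1 := key (W t (T (k n))) (W t (T (k m)))
      rw [norm_of_inn (h.inn t), sub_of_inn (h.inn t), norm_of_inn h.tin, sub_of_inn h.tin] at h1
      show ‖F n (t - ((1 / 2 : ℝ) : ℂ) * Complex.I) - F m (t - ((1 / 2 : ℝ) : ℂ) * Complex.I)‖ ≤ _
      rw [half, (hF n).lo, (hF m).lo]
      exact h1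
  have hcl : ∀ z : ℂ, z ∈ closure (Sp (1 / 2)) ↔ -(1 / 2) ≤ z.im ∧ z.im ≤ 0 := fun z =>
    mem_cl (by norm_num)
  have hcau : UniformCauchySeqOn F atTop (closure (Sp (1 / 2))) := by
    intro u hu
    obtain ⟨ε, hε, hεu⟩ := Metric.mem_uniformity_dist.1 hu
    have h1 : Tendsto (fun p : ℕ × ℕ => ‖y p.1 - y p.2‖ * ‖k p.1‖ + ‖y p.2‖ * ‖k p.1 - k p.2‖)
        (atTop ×ˢ atTop) (𝓝 (‖y0 - y0‖ * ‖k0‖ + ‖y0‖ * ‖k0 - k0‖)) := by
      have hy1 : Tendsto (fun p : ℕ × ℕ => y p.1) (atTop ×ˢ atTop) (𝓝 y0) := hy.comp tendsto_fst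
      have hy2 : Tendsto (fun p : ℕ × ℕ => y p.2) (atTop ×ˢ atTop) (𝓝 y0) := hy.comp tendsto_snd
      have hk1 : Tendsto (fun p : ℕ × ℕ => k p.1) (atTop ×ˢ atTop) (𝓝 k0) := hk.comp tendsto_fst
      have hk2 : Tendsto (fun p : ℕ × ℕ => k p.2) (atTop ×ˢ atTop) (𝓝 k0) := hk.comp tendsto_snd
      exact ((hy1.sub hy2).norm.mul hk1.norm).add (hy2.norm.mul (hk1.sub hk2).norm)
    rw [sub_self, sub_self, norm_zero, zero_mul, mul_zero, add_zero] at h1
    filter_upwards [h1.eventually (gt_mem_nhds hε)] with p hp z hz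
    refine hεu ?_
    rw [dist_eq_norm]
    exact (hd p.1 p.2 z ((hcl z).1 hz).1 ((hcl z).1 hz).2).trans_lt hp
  have hex : ∀ z ∈ closure (Sp (1 / 2)), ∃ l, Tendsto (fun n => F n z) atTop (𝓝 l) := fun z hz =>
    cauchySeq_tendsto_of_complete (hcau.cauchySeq hz)
  choose! G hG using hex
  have hun : TendstoUniformlyOn F G atTop (closure (Sp (1 / 2))) :=
    hcau.tendstoUniformlyOn_of_tendsto hG
  have hreal : ∀ t : ℝ, (t : ℂ) ∈ closure (Sp (1 / 2)) := fun t => (hcl _).2 (by simp)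
  have hlow : ∀ t : ℝ, (t : ℂ) - Complex.I / 2 ∈ closure (Sp (1 / 2)) := fun t => by
    refine (hcl _).2 ?_
    have h1 : ((t : ℂ) - Complex.I / 2).im = -(1 / 2) := by
      rw [← half]
      simp
    rw [h1]
    norm_num
  refine ⟨G, ⟨?_, ?_⟩, ?_, ?_, ?_⟩
  · refine (hun.mono subset_closure).tendstoLocallyUniformlyOn.differentiableOn
      (Eventually.of_forall fun n => (hF n).dc.differentiableOn) (isOpen_Sp _)
  · exact hun.continuousOn (Eventually.of_forall fun n => (hF n).dc.continuousOn).frequently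
  · refine ⟨‖y0‖ * ‖k0‖, fun z hz hz' => ?_⟩
    exact le_of_tendsto_of_tendsto' (hG z ((hcl z).2 ⟨hz, hz'⟩)).norm (hy.norm.mul hk.norm)
      fun n => (hF n).le h hz hz'
  · intro t
    refine tendsto_nhds_unique (hG _ (hreal t)) ?_
    have h1 : Tendsto (fun n => W t (k n)) atTop (𝓝 (W t k0)) := by
      rw [tendsto_iff_norm_sub_tendsto_zero] at hk ⊢
      simpa only [sub_of_inn (h.inn t)] using hk
    simp only [(hF _).re]
    exact hy.inner h1
  · intro t
    refine tendsto_nhds_unique (hG _ (hlow t)) ?_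
    have h1 : Tendsto (fun n => W t (T (k n))) atTop (𝓝 (W t (T k0))) := by
      rw [tendsto_iff_norm_sub_tendsto_zero] at hk ⊢
      simpa only [sub_of_inn (h.inn t), sub_of_inn h.tin] using hk
    simp only [(hF _).lo]
    exact hy.inner h1

theorem exists_all (h : Hy W T) {K Y : Set H} (hK : Dense K) (hY : Dense Y)
    (hKY : ∀ k ∈ K, ∀ y ∈ Y, ∃ F, Pr W T y k F) (y k : H) : ∃ F, Pr W T y k F := by
  obtain ⟨ks, hks, hks'⟩ := mem_closure_iff_seq_limit.1 (hK k)
  obtain ⟨ys, hys, hys'⟩ := mem_closure_iff_seq_limit.1 (hY y)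
  exact lim h hys' hks' fun n => hKY _ (hks n) _ (hys n)

/-- The translate. -/
theorem Pr.shift (h : Hy W T) {y k : H} {F : ℂ → ℂ} (hF : Pr W T y k F) (s : ℝ) :
    Pr W T (W (-s) y) k fun z => F (z + s) := by
  have him : ∀ z : ℂ, (z + (s : ℂ)).im = z.im := fun z => by simp
  have hmaps : MapsTo (fun z : ℂ => z + (s : ℂ)) (Sp (1 / 2)) (Sp (1 / 2)) := fun z hz => by
    show -(1 / 2) < (z + (s : ℂ)).im ∧ (z + (s : ℂ)).im < 0
    rw [him]
    exact hz
  refine ⟨?_, ?_, fun t => ?_, fun t => ?_⟩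
  · exact hF.dc.comp (Differentiable.diffContOnCl (by fun_prop)) hmaps
  · obtain ⟨C, hC⟩ := hF.bd
    exact ⟨C, fun z hz hz' => hC _ (by rwa [him]) (by rwa [him])⟩
  · show F (t + s) = _
    rw [← Complex.ofReal_add, hF.re, h.adj, ← h.add, add_comm]
  · show F (t - Complex.I / 2 + s) = _
    have h1 : (t : ℂ) - Complex.I / 2 + s = ((t + s : ℝ) : ℂ) - Complex.I / 2 := by
      push_cast
      ring
    rw [h1, hF.lo, h.adj, ← h.add, add_comm]

theorem im_neg (s : ℝ) : (-(s : ℂ) * Complex.I).im = -s := by simp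

/-- Riesz. -/
theorem riesz [CompleteSpace H] (h : Hy W T) {F : H → H → ℂ → ℂ}
    (hF : ∀ y k, Pr W T y k (F y k)) (k : H) {z : ℂ} (hz : -(1 / 2) ≤ z.im) (hz' : z.im ≤ 0) :
    ∃ x, ∀ y, F y k z = inner ℂ y x := by
  have hadd : ∀ y y', F (y + y') k z = F y k z + F y' k z := by
    intro y y'
    refine uniq (by norm_num) (hF (y + y') k).dc ((hF y k).dc.add (hF y' k).dc) (hF (y + y') k).bd
      ((hF y k).bd.add (hF y' k).bd) (fun t => ?_) hz hz'
    show F (y + y') k t = F y k t + F y' k t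
    rw [(hF (y + y') k).re, (hF y k).re, (hF y' k).re, inner_add_left]
  have hsm : ∀ (c : ℂ) (y : H), F (c • y) k z = (starRingEnd ℂ) c * F y k z := by
    intro c y
    have hbd : Bd (1 / 2) (fun z => (starRingEnd ℂ) c • F y k z) := by
      obtain ⟨C, hC⟩ := (hF y k).bd
      refine ⟨‖c‖ * C, fun w hw hw' => ?_⟩
      rw [norm_smul, RCLike.norm_conj]
      exact mul_le_mul_of_nonneg_left (hC w hw hw') (norm_nonneg _)
    refine uniq (by norm_num) (hF (c • y) k).dc ((hF y k).dc.const_smul ((starRingEnd ℂ) c))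
      (hF (c • y) k).bd hbd (fun t => ?_) hz hz'
    show F (c • y) k t = (starRingEnd ℂ) c * F y k t
    rw [(hF (c • y) k).re, (hF y k).re, inner_smul_left]
  let L : H →ₗ[ℂ] ℂ :=
    { toFun := fun y => (starRingEnd ℂ) (F y k z)
      map_add' := fun y y' => by rw [hadd, map_add]
      map_smul' := fun c y => by
        rw [hsm, map_mul, Complex.conj_conj, RingHom.id_apply, smul_eq_mul] }
  have hL : ∀ y, ‖L y‖ ≤ ‖k‖ * ‖y‖ := fun y => by
    show ‖(starRingEnd ℂ) (F y k z)‖ ≤ _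
    rw [RCLike.norm_conj, mul_comm]
    exact (hF y k).le h hz hz'
  refine ⟨(InnerProductSpace.toDual ℂ H).symm (L.mkContinuous ‖k‖ hL), fun y => ?_⟩
  rw [← inner_conj_symm, InnerProductSpace.toDual_symm_apply]
  show F y k z = (starRingEnd ℂ) ((starRingEnd ℂ) (F y k z))
  rw [Complex.conj_conj]

/-- The reflected function. -/
theorem refl_dc {f : ℂ → ℂ} {a : ℝ} (ha : 0 < a) (hf : DiffContOnCl ℂ f (Sp a)) :
    DiffContOnCl ℂ (fun z => (starRingEnd ℂ) (f (-(starRingEnd ℂ) z))) (Sp a) := by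
  refine ⟨fun z hz => ?_, ?_⟩
  · refine DifferentiableAt.differentiableWithinAt ?_
    have h1 : DifferentiableAt ℂ f (-(starRingEnd ℂ) z) := by
      refine (hf.differentiableOn _ ?_).differentiableAt ((isOpen_Sp a).mem_nhds ?_)
      · simpa [Sp] using hz
      · simpa [Sp] using hz
    have h2 : DifferentiableAt ℂ (fun w => f (-w)) ((starRingEnd ℂ) z) :=
      DifferentiableAt.comp ((starRingEnd ℂ) z) h1 differentiableAt_id.neg
    exact differentiableAt_conj_conj_iff.2 h2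
  · refine Complex.continuous_conj.comp_continuousOn ?_
    refine hf.continuousOn.comp (Complex.continuous_conj.neg).continuousOn fun z hz => ?_
    rw [mem_cl ha] at hz ⊢
    simpa using hz

/-- **A one-parameter unitary group with isometric value at `-i/2` is trivial.** -/
theorem triv [CompleteSpace H] (h : Hy W T) {K Y : Set H} (hK : Dense K) (hY : Dense Y)
    (hKY : ∀ k ∈ K, ∀ y ∈ Y, ∃ F, Pr W T y k F) (t : ℝ) (x : H) : W t x = x := by
  have hall := exists_all h hK hY hKY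
  choose F hF using hall
  have hA : ∀ (s : ℝ) (k : H), ∃ x, 0 ≤ s → s ≤ 1 / 2 → ∀ y,
      F y k (-(s : ℂ) * Complex.I) = inner ℂ y x := by
    intro s k
    by_cases hs : 0 ≤ s ∧ s ≤ 1 / 2
    · obtain ⟨x, hx⟩ := riesz h hF k (z := -(s : ℂ) * Complex.I)
        (by rw [im_neg]; linarith [hs.2]) (by rw [im_neg]; linarith [hs.1])
      exact ⟨x, fun _ _ => hx⟩
    · exact ⟨0, fun h1 h2 => absurd ⟨h1, h2⟩ hs⟩
  choose A hA using hA
  -- contractions
  have hle : ∀ s : ℝ, 0 ≤ s → s ≤ 1 / 2 → ∀ k, ‖A s k‖ ≤ ‖k‖ := by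
    intro s hs hs' k
    have h1 : ‖A s k‖ * ‖A s k‖ ≤ ‖A s k‖ * ‖k‖ := by
      have h2 := (hF (A s k) k).le h (z := -(s : ℂ) * Complex.I)
        (by rw [im_neg]; linarith) (by rw [im_neg]; linarith)
      rw [hA s k hs hs'] at h2
      have h3 : ‖inner ℂ (A s k) (A s k)‖ = ‖A s k‖ * ‖A s k‖ := by
        rw [inner_self_eq_norm_sq_to_K]
        simp [sq]
      rwa [h3] at h2
    rcases eq_or_lt_of_le (norm_nonneg (A s k)) with h3 | h3
    · rw [← h3]; exact norm_nonneg _
    · exact le_of_mul_le_mul_left h1 h3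
  -- the translates
  have hsh : ∀ (u : ℝ) (y k : H) (z : ℂ), -(1 / 2) ≤ z.im → z.im ≤ 0 →
      F (W (-u) y) k z = F y k (z + u) := by
    intro u y k z hz hz'
    refine (hF (W (-u) y) k).congr_re ((hF y k).shift h u) (fun t => ?_) hz hz'
    rw [(hF (W (-u) y) k).re, ((hF y k).shift h u).re]
  -- the semigroup
  have hsemi : ∀ s s' : ℝ, 0 ≤ s → 0 ≤ s' → s + s' ≤ 1 / 2 → ∀ k,
      A s' (A s k) = A (s + s') k := by
    intro s s' hs hs' hss k
    refine ext_inner_left ℂ fun y => ?_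
    rw [← hA s' _ hs' (by linarith), ← hA (s + s') _ (by linarith) hss]
    rcases eq_or_lt_of_le hs' with h1 | h1
    · subst h1
      have h2 : -((0 : ℝ) : ℂ) * Complex.I = ((0 : ℝ) : ℂ) := by simp
      rw [h2, (hF y (A s k)).re, h.zero, add_zero, hA s k hs (by linarith)]
    · have ha : 0 < 1 / 2 - s := by linarith
      have hsub : Sp (1 / 2 - s) ⊆ Sp (1 / 2) := fun z hz => ⟨by linarith [hz.1], hz.2⟩
      have him : ∀ z : ℂ, (z - s * Complex.I).im = z.im - s := fun z => by simp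
      have hmaps : MapsTo (fun z : ℂ => z - s * Complex.I) (Sp (1 / 2 - s)) (Sp (1 / 2)) :=
        fun z hz => by
          show -(1 / 2) < (z - s * Complex.I).im ∧ (z - s * Complex.I).im < 0
          rw [him]
          exact ⟨by linarith [hz.1], by linarith [hz.2]⟩
      have h3 := uniq (a := 1 / 2 - s) ha (f := F y (A s k))
        (g := fun z => F y k (z - s * Complex.I)) ((hF y (A s k)).dc.mono hsub)
        ((hF y k).dc.comp (Differentiable.diffContOnCl (by fun_prop)) hmaps) ?_ ?_ ?_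
        (z := -(s' : ℂ) * Complex.I) (by rw [im_neg]; linarith) (by rw [im_neg]; linarith)
      · rw [h3]
        congr 1
        push_cast
        ring
      · obtain ⟨C, hC⟩ := (hF y (A s k)).bd
        exact ⟨C, fun z hz hz' => hC z (by linarith) hz'⟩
      · obtain ⟨C, hC⟩ := (hF y k).bd
        refine ⟨C, fun z hz hz' => hC _ ?_ ?_⟩
        · rw [him]; linarith
        · rw [him]; linarith
      · intro u
        show F y (A s k) u = F y k (u - s * Complex.I)
        rw [(hF y (A s k)).re, ← h.adj, ← hA s k hs (by linarith),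
          hsh u y k _ (by rw [im_neg]; linarith) (by rw [im_neg]; linarith)]
        congr 1
        ring
  -- self-adjoint
  have hsa : ∀ s : ℝ, 0 ≤ s → s ≤ 1 / 2 → ∀ y k, inner ℂ (A s y) k = inner ℂ y (A s k) := by
    intro s hs hs' y k
    have h1 := uniq (a := 1 / 2) (by norm_num)
      (f := fun z => (starRingEnd ℂ) (F k y (-(starRingEnd ℂ) z))) (g := F y k)
      (refl_dc (by norm_num) (hF k y).dc) (hF y k).dc ?_ (hF y k).bd ?_
      (z := -(s : ℂ) * Complex.I) (by rw [im_neg]; linarith) (by rw [im_neg]; linarith)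
    · have h2 : -(starRingEnd ℂ) (-(s : ℂ) * Complex.I) = -(s : ℂ) * Complex.I := by
        simp
      simp only [h2] at h1
      rw [hA s y hs hs', hA s k hs hs', inner_conj_symm] at h1
      exact h1
    · obtain ⟨C, hC⟩ := (hF k y).bd
      refine ⟨C, fun z hz hz' => ?_⟩
      rw [RCLike.norm_conj]
      exact hC _ (by simpa using hz) (by simpa using hz')
    · intro u
      have h2 : -(starRingEnd ℂ) (u : ℂ) = ((-u : ℝ) : ℂ) := by simp
      show (starRingEnd ℂ) (F k y (-(starRingEnd ℂ) (u : ℂ))) = F y k u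
      rw [h2, (hF k y).re, (hF y k).re, inner_conj_symm, h.adj]
  -- isometric
  have hiso : ∀ s : ℝ, 0 ≤ s → s ≤ 1 / 2 → ∀ k, ‖A s k‖ = ‖k‖ := by
    intro s hs hs' k
    refine le_antisymm (hle s hs hs' k) ?_
    have h1 : A (1 / 2) k = T k := by
      refine ext_inner_left ℂ fun y => ?_
      rw [← hA (1 / 2) k (by norm_num) le_rfl]
      have h2 : -(((1 / 2 : ℝ)) : ℂ) * Complex.I = ((0 : ℝ) : ℂ) - Complex.I / 2 := by
        push_cast
        ring
      rw [h2, (hF y k).lo, h.zero]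
    have h2 : A (1 / 2 - s) (A s k) = A (1 / 2) k := by
      rw [hsemi s (1 / 2 - s) hs (by linarith) (by linarith)]
      congr 1
      ring
    calc ‖k‖ = ‖T k‖ := (norm_of_inn h.tin k).symm
      _ = ‖A (1 / 2 - s) (A s k)‖ := by rw [h2, h1]
      _ ≤ ‖A s k‖ := hle _ (by linarith) (by linarith) _
  -- trivial
  have hone : ∀ s : ℝ, 0 ≤ s → s ≤ 1 / 4 → ∀ k, A (s + s) k = k := by
    intro s hs hs' k
    have h1 : inner ℂ (A (s + s) k) k = inner ℂ (A s k) (A s k) := by
      rw [← hsemi s s hs hs (by linarith), hsa s hs (by linarith)]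
    have h2 : ‖A (s + s) k - k‖ ^ 2 = 0 := by
      rw [@norm_sub_sq ℂ, h1, inner_self_eq_norm_sq, hiso s hs (by linarith),
        hiso (s + s) (by linarith) (by linarith)]
      ring
    exact sub_eq_zero.1 (norm_eq_zero.1 (pow_eq_zero_iff (two_ne_zero)|>.1 h2))
  refine ext_inner_left ℂ fun y => ?_
  have hvert : ∀ u : ℝ, 0 ≤ u → u ≤ 1 / 2 → F y x (-(u : ℂ) * Complex.I) = inner ℂ y x := by
    intro u hu hu'
    rw [hA u x hu hu']
    have h1 := hone (u / 2) (by linarith) (by linarith) x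
    rw [add_halves] at h1
    rw [h1]
  have hconv : Convex ℝ (Sp (1 / 2)) :=
    (convex_halfSpace_im_gt (-(1 / 2))).inter (convex_halfSpace_im_lt 0)
  have hz0 : -(((1 / 4 : ℝ)) : ℂ) * Complex.I ∈ Sp (1 / 2) := by
    show -(1 / 2) < (-(((1 / 4 : ℝ)) : ℂ) * Complex.I).im ∧
      (-(((1 / 4 : ℝ)) : ℂ) * Complex.I).im < 0
    rw [im_neg]
    norm_num
  have hfreq : ∃ᶠ z in 𝓝[≠] (-(((1 / 4 : ℝ)) : ℂ) * Complex.I), F y x z = inner ℂ y x := by
    have h1 : Tendsto (fun u : ℝ => -(u : ℂ) * Complex.I) (𝓝[≠] (1 / 4))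
        (𝓝[≠] (-(((1 / 4 : ℝ)) : ℂ) * Complex.I)) := by
      refine tendsto_nhdsWithin_of_tendsto_nhds_of_eventually_within _ ?_ ?_
      · refine (Continuous.tendsto (by fun_prop) _).mono_left nhdsWithin_le_nhds
      · filter_upwards [self_mem_nhdsWithin] with u hu hcon
        apply hu
        have h2 := congrArg Complex.im hcon
        rw [im_neg, im_neg] at h2
        exact neg_injective h2
    refine h1.frequently ?_
    refine Eventually.frequently ?_
    have h2 : Ioo (0 : ℝ) (1 / 2) ∈ 𝓝 (1 / 4 : ℝ) := Ioo_mem_nhds (by norm_num) (by norm_num)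
    filter_upwards [mem_nhdsWithin_of_mem_nhds h2] with u hu
    exact hvert u hu.1.le hu.2.le
  have heq : EqOn (F y x) (fun _ => inner ℂ y x) (Sp (1 / 2)) := by
    have h1 : AnalyticOnNhd ℂ (F y x) (Sp (1 / 2)) :=
      (hF y x).dc.differentiableOn.analyticOnNhd (isOpen_Sp _)
    exact h1.eqOn_of_preconnected_of_frequently_eq analyticOnNhd_const hconv.isPreconnected hz0
      hfreq
  have hcl : EqOn (F y x) (fun _ => inner ℂ y x) (closure (Sp (1 / 2))) :=
    heq.of_subset_closure (hF y x).dc.continuousOn continuousOn_const subset_closure subset_rfl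
  have h1 := hcl ((mem_cl (z := (t : ℂ)) (by norm_num)).2 (by simp))
  rw [(hF y x).re] at h1
  exact h1

end

end Vale.Agent.P352.BW.H48
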