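import Vale.Agent.P352.BW.H48.Hil
import Vale.Agent.P352.BW.B
import Vale.Agent.P352.BW.T.NAd

/-!
# P352, block U: uniqueness of the modular unitaries

`IsMod M ξ V J` and `E : ModData M ξ` give `V t = Δ^{it}`. By naturality `V` commutes with the
functional calculus of `E`, so `W t = E.U (-t) V t` is a unitary group; the KMS function of `V` at
the entire vector `E.U (z̄) y` continues `⟨y, W t k⟩` to the strip, with the value
`⟨y, W t (J E.J k)⟩` on the lower side; `triv`.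
-/

open Filter Topology Set
open scoped BoundedContinuousFunction
open Vale.Agent.P132 (ModData expB)

namespace Vale.Agent.P352.BW.H48

noncomputable section

variable {H : Type*} [NormedAddCommGroup H] [InnerProductSpace ℂ H]

theorem lin_of_inn {A : H → H} (h : ∀ x y, inner ℂ (A x) (A y) = inner ℂ x y)
    (hs : Function.Surjective A) :
    (∀ x y, A (x + y) = A x + A y) ∧ ∀ (c : ℂ) x, A (c • x) = c • A x := by
  refine ⟨fun x y => ?_, fun c x => ?_⟩
  · refine ext_inner_left ℂ fun v => ?_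
    obtain ⟨z, rfl⟩ := hs v
    rw [h, inner_add_right, inner_add_right, h, h]
  · refine ext_inner_left ℂ fun v => ?_
    obtain ⟨z, rfl⟩ := hs v
    rw [h, inner_smul_right, inner_smul_right, h]

/-- The KMS function at a vector which depends on the argument. -/
theorem prod {F : H → ℂ → ℂ} {C : ℝ} (hdc : ∀ y, DiffContOnCl ℂ (F y) (Sp (1 / 2)))
    (hle : ∀ y (z : ℂ), -(1 / 2) ≤ z.im → z.im ≤ 0 → ‖F y z‖ ≤ C * ‖y‖)
    (hadd : ∀ y y' (z : ℂ), -(1 / 2) ≤ z.im → z.im ≤ 0 → F (y + y') z = F y z + F y' z)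
    (hsm : ∀ (c : ℂ) y (z : ℂ), -(1 / 2) ≤ z.im → z.im ≤ 0 →
      F (c • y) z = (starRingEnd ℂ) c * F y z) {v : ℂ → H} (hv : Differentiable ℂ v) :
    DiffContOnCl ℂ (fun z => F (v ((starRingEnd ℂ) z)) z) (Sp (1 / 2)) := by
  have h12 : (0 : ℝ) < 1 / 2 := by norm_num
  have hsub : ∀ y y' (z : ℂ), -(1 / 2) ≤ z.im → z.im ≤ 0 → F y z = F (y - y') z + F y' z := by
    intro y y' z hz hz'
    rw [← hadd _ _ z hz hz', sub_add_cancel]
  refine ⟨fun z₀ hz₀ => ?_, fun z₀ hz₀ => ?_⟩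
  · refine DifferentiableAt.differentiableWithinAt ?_
    have hd1 : HasDerivAt (F (v ((starRingEnd ℂ) z₀))) (deriv (F (v ((starRingEnd ℂ) z₀))) z₀) z₀ :=
      (((hdc _).differentiableOn z₀ hz₀).differentiableAt
        ((isOpen_Sp _).mem_nhds hz₀)).hasDerivAt
    have hd2 : HasDerivAt v (deriv v ((starRingEnd ℂ) z₀)) ((starRingEnd ℂ) z₀) :=
      (hv _).hasDerivAt
    have hd3 : ContinuousAt (F (deriv v ((starRingEnd ℂ) z₀))) z₀ :=
      (((hdc _).differentiableOn z₀ hz₀).differentiableAt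
        ((isOpen_Sp _).mem_nhds hz₀)).continuousAt
    refine HasDerivAt.differentiableAt (f' := F (deriv v ((starRingEnd ℂ) z₀)) z₀ +
      deriv (F (v ((starRingEnd ℂ) z₀))) z₀) ?_
    rw [hasDerivAt_iff_tendsto_slope] at hd1 hd2 ⊢
    have hconj : Tendsto (starRingEnd ℂ) (𝓝[≠] z₀) (𝓝[≠] ((starRingEnd ℂ) z₀)) := by
      refine tendsto_nhdsWithin_of_tendsto_nhds_of_eventually_within _
        ((Complex.continuous_conj.tendsto z₀).mono_left nhdsWithin_le_nhds) ?_
      filter_upwards [self_mem_nhdsWithin] with z hz hcon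
      exact hz ((starRingEnd ℂ).injective hcon)
    have h1 : Tendsto (fun z => F (slope v ((starRingEnd ℂ) z₀) ((starRingEnd ℂ) z) -
        deriv v ((starRingEnd ℂ) z₀)) z) (𝓝[≠] z₀) (𝓝 0) := by
      have h2 : Tendsto (fun z => C * ‖slope v ((starRingEnd ℂ) z₀) ((starRingEnd ℂ) z) -
          deriv v ((starRingEnd ℂ) z₀)‖) (𝓝[≠] z₀) (𝓝 0) := by
        have h3 := ((hd2.comp hconj).sub_const (deriv v ((starRingEnd ℂ) z₀))).norm.const_mul C
        rw [sub_self, norm_zero, mul_zero] at h3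
        exact h3
      refine squeeze_zero_norm' ?_ h2
      filter_upwards [mem_nhdsWithin_of_mem_nhds ((isOpen_Sp _).mem_nhds hz₀)] with z hz
      exact hle _ z hz.1.le hz.2.le
    have h2 : Tendsto (fun z => F (deriv v ((starRingEnd ℂ) z₀)) z) (𝓝[≠] z₀)
        (𝓝 (F (deriv v ((starRingEnd ℂ) z₀)) z₀)) := hd3.tendsto.mono_left nhdsWithin_le_nhds
    have h3 := (h1.add h2).add hd1
    rw [zero_add] at h3
    refine h3.congr' ?_
    filter_upwards [mem_nhdsWithin_of_mem_nhds ((isOpen_Sp _).mem_nhds hz₀),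
      self_mem_nhdsWithin] with z hz hne
    have hzne : z - z₀ ≠ 0 := sub_ne_zero.2 hne
    rw [← hsub _ _ z hz.1.le hz.2.le, slope_def_field, slope_def_field, slope_def_module,
      hsm _ _ z hz.1.le hz.2.le,
      hsub (v ((starRingEnd ℂ) z)) (v ((starRingEnd ℂ) z₀)) z hz.1.le hz.2.le, map_inv₀, map_sub,
      Complex.conj_conj, Complex.conj_conj]
    field_simp
    ring
  · have hz₀' := (mem_cl h12).1 hz₀
    have h1 : Tendsto (fun z => F (v ((starRingEnd ℂ) z) - v ((starRingEnd ℂ) z₀)) z)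
        (𝓝[closure (Sp (1 / 2))] z₀) (𝓝 0) := by
      have h2 : Tendsto (fun z => C * ‖v ((starRingEnd ℂ) z) - v ((starRingEnd ℂ) z₀)‖)
          (𝓝[closure (Sp (1 / 2))] z₀) (𝓝 0) := by
        have h3 : Tendsto (fun z => C * ‖v ((starRingEnd ℂ) z) - v ((starRingEnd ℂ) z₀)‖) (𝓝 z₀)
            (𝓝 (C * ‖v ((starRingEnd ℂ) z₀) - v ((starRingEnd ℂ) z₀)‖)) := by
          have h4 : Continuous fun z => C * ‖v ((starRingEnd ℂ) z) - v ((starRingEnd ℂ) z₀)‖ :=
            continuous_const.mul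
              (((hv.continuous.comp Complex.continuous_conj).sub continuous_const).norm)
          exact h4.tendsto z₀
        rw [sub_self, norm_zero, mul_zero] at h3
        exact h3.mono_left nhdsWithin_le_nhds
      refine squeeze_zero_norm' ?_ h2
      filter_upwards [self_mem_nhdsWithin] with z hz
      exact hle _ z ((mem_cl h12).1 hz).1 ((mem_cl h12).1 hz).2
    have h2 := h1.add ((hdc (v ((starRingEnd ℂ) z₀))).continuousOn z₀ hz₀)
    rw [zero_add] at h2
    refine h2.congr' ?_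
    filter_upwards [self_mem_nhdsWithin] with z hz
    exact (hsub _ _ z ((mem_cl h12).1 hz).1 ((mem_cl h12).1 hz).2).symm

variable [CompleteSpace H] {M : VonNeumannAlgebra H} {ξ : H} {V : ℝ → H → H} {J : H → H}

theorem hyV (h : IsMod M ξ V J) : Hy V id := ⟨h.inn, h.add, fun _ _ => rfl⟩

theorem V_neg (h : IsMod M ξ V J) (s : ℝ) (x : H) : V s (V (-s) x) = x := by
  rw [← h.add, add_neg_cancel, (hyV h).zero]

theorem V_neg' (h : IsMod M ξ V J) (s : ℝ) (x : H) : V (-s) (V s x) = x := by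
  rw [← h.add, neg_add_cancel, (hyV h).zero]

/-- `V s` as a unitary. -/
def lie (h : IsMod M ξ V J) (s : ℝ) : H ≃ₗᵢ[ℂ] H :=
  { toLinearEquiv :=
      { toFun := V s
        map_add' := (lin_of_inn (h.inn s) fun x => ⟨V (-s) x, V_neg h s x⟩).1
        map_smul' := (lin_of_inn (h.inn s) fun x => ⟨V (-s) x, V_neg h s x⟩).2
        invFun := V (-s)
        left_inv := V_neg' h s
        right_inv := V_neg h s }
    norm_map' := norm_of_inn (h.inn s) }

theorem nat (E : ModData M ξ) (h : IsMod M ξ V J) (s : ℝ) :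
    (∀ F z, V s (E.Th F z) = E.Th F (V s z)) ∧ ∀ z, V s (E.J z) = E.J (V s z) := by
  refine T.n M ξ E (lie h s) (h.vac s) (h.inv s) fun Y hY => ?_
  obtain ⟨X, hX, hX'⟩ := h.inv (-s) Y hY
  refine ⟨X, hX, fun z => ?_⟩
  have h1 := hX' (V s z)
  rw [V_neg' h] at h1
  show Y (V s z) = V s (X z)
  rw [h1, V_neg h]

/-- The KMS functions. -/
theorem kmsF (h : IsMod M ξ V J) {X : H →L[ℂ] H} (hX : X ∈ M) : ∃ F : H → ℂ → ℂ,
    (∀ y, DiffContOnCl ℂ (F y) (Sp (1 / 2))) ∧
    (∀ y (z : ℂ), -(1 / 2) ≤ z.im → z.im ≤ 0 → ‖F y z‖ ≤ (‖X ξ‖ + ‖star X ξ‖) * ‖y‖) ∧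
    (∀ y y' (z : ℂ), -(1 / 2) ≤ z.im → z.im ≤ 0 → F (y + y') z = F y z + F y' z) ∧
    (∀ (c : ℂ) y (z : ℂ), -(1 / 2) ≤ z.im → z.im ≤ 0 →
      F (c • y) z = (starRingEnd ℂ) c * F y z) ∧
    ∀ y, ∀ t : ℝ, F y t = inner ℂ y (V t (X ξ)) ∧
      F y (t - Complex.I / 2) = inner ℂ y (V t (J (star X ξ))) := by
  choose F hF hb hv using h.kms X hX
  have hB : ∀ y, Bd (1 / 2) (F y) := hb
  have h12 : (0 : ℝ) < 1 / 2 := by norm_num
  refine ⟨F, hF, fun y z hz hz' => ?_, fun y y' z hz hz' => ?_, fun c y z hz hz' => ?_, hv⟩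
  · refine strip_le h12 (hF y) (hB y) (fun t => ?_) (fun t => ?_) hz hz'
    · rw [(hv y t).1]
      refine (norm_inner_le_norm _ _).trans ?_
      rw [norm_of_inn (h.inn t)]
      have := mul_nonneg (norm_nonneg y) (norm_nonneg (star X ξ))
      nlinarith
    · rw [half, (hv y t).2]
      refine (norm_inner_le_norm _ _).trans ?_
      have hj : ‖J (star X ξ)‖ = ‖star X ξ‖ := by
        have h1 : ‖J (star X ξ)‖ ^ 2 = ‖star X ξ‖ ^ 2 := by
          rw [← inner_self_eq_norm_sq (𝕜 := ℂ), ← inner_self_eq_norm_sq (𝕜 := ℂ), h.jinn]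
        exact (sq_eq_sq₀ (norm_nonneg _) (norm_nonneg _)).1 h1
      rw [norm_of_inn (h.inn t), hj]
      have := mul_nonneg (norm_nonneg y) (norm_nonneg (X ξ))
      nlinarith
  · refine uniq h12 (hF (y + y')) ((hF y).add (hF y')) (hB (y + y')) ((hB y).add (hB y'))
      (fun t => ?_) hz hz'
    show F (y + y') t = F y t + F y' t
    rw [(hv _ t).1, (hv _ t).1, (hv _ t).1, inner_add_left]
  · have hbd : Bd (1 / 2) (fun z => (starRingEnd ℂ) c • F y z) := by
      obtain ⟨C, hC⟩ := hB y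
      refine ⟨‖c‖ * C, fun w hw hw' => ?_⟩
      rw [norm_smul, RCLike.norm_conj]
      exact mul_le_mul_of_nonneg_left (hC w hw hw') (norm_nonneg _)
    refine uniq h12 (hF (c • y)) ((hF y).const_smul ((starRingEnd ℂ) c)) (hB (c • y)) hbd
      (fun t => ?_) hz hz'
    show F (c • y) t = (starRingEnd ℂ) c * F y t
    rw [(hv _ t).1, (hv _ t).1, inner_smul_left]

theorem Th_adj (E : ModData M ξ) (F : ℝ →ᵇ ℂ) (x y : H) :
    inner ℂ (E.Th F x) y = inner ℂ x (E.Th (star F) y) := by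
  rw [map_star, ContinuousLinearMap.star_eq_adjoint, ContinuousLinearMap.adjoint_inner_right]

/-- The entire vector. -/
def ev (E : ModData M ξ) (χ : ℝ →ᵇ ℂ) (hχ : HasCompactSupport χ) (y : H) (w : ℂ) : H :=
  E.Th (ez χ hχ (Complex.I * w + 1 / 2)) y

theorem ev_diff (E : ModData M ξ) (χ : ℝ →ᵇ ℂ) (hχ : HasCompactSupport χ) (y : H) :
    Differentiable ℂ (ev E χ hχ y) := by
  have h1 : Differentiable ℂ fun w : ℂ => E.Th (ez χ hχ (Complex.I * w + 1 / 2)) :=
    ((bblock E).ez_diff χ hχ).comp (by fun_prop : Differentiable ℂ fun w : ℂ =>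
      Complex.I * w + 1 / 2)
  exact h1.clm_apply (differentiable_const y)

theorem ev_bd (E : ModData M ξ) (χ : ℝ →ᵇ ℂ) (hχ : HasCompactSupport χ) (y : H) :
    ∃ C, ∀ z : ℂ, -(1 / 2) ≤ z.im → z.im ≤ 0 → ‖ev E χ hχ y ((starRingEnd ℂ) z)‖ ≤ C := by
  obtain ⟨R, hR⟩ := hχ.isCompact.isBounded.subset_closedBall 0
  have hR' : ∀ h : ℝ, χ h ≠ 0 → |h| ≤ |R| := by
    intro h hh
    have := hR (subset_tsupport _ (Function.mem_support.2 hh))
    rw [mem_closedBall_zero_iff, Real.norm_eq_abs] at this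
    exact this.trans (le_abs_self R)
  refine ⟨Real.exp (|R|) * ‖χ‖ * ‖y‖, fun z hz hz' => ?_⟩
  refine ((E.Th _).le_opNorm y).trans ?_
  refine mul_le_mul_of_nonneg_right ((E.norm_Th_le _).trans ?_) (norm_nonneg y)
  rw [BoundedContinuousFunction.norm_le (by positivity)]
  intro h
  rw [b_ez, norm_mul, Complex.norm_exp]
  by_cases hh : χ h = 0
  · rw [hh]; simp only [norm_zero, mul_zero]; positivity
  · refine mul_le_mul (Real.exp_le_exp.2 ?_) (χ.norm_coe_le_norm h) (norm_nonneg _)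
      (Real.exp_pos _).le
    have h1 : ((Complex.I * (starRingEnd ℂ) z + 1 / 2) * h).re = (z.im + 1 / 2) * h := by
      simp
    rw [h1]
    calc (z.im + 1 / 2) * h ≤ |(z.im + 1 / 2) * h| := le_abs_self _
      _ = |z.im + 1 / 2| * |h| := abs_mul _ _
      _ ≤ 1 * |R| := by
          refine mul_le_mul ?_ (hR' h hh) (abs_nonneg _) zero_le_one
          rw [abs_le]
          constructor <;> linarith
      _ = |R| := one_mul _

theorem ev_re (E : ModData M ξ) (χ : ℝ →ᵇ ℂ) (hχ : HasCompactSupport χ) (y : H) (t : ℝ) :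
    ev E χ hχ y t = E.U t (E.Th (ez χ hχ (1 / 2)) y) := by
  have h1 : ez χ hχ (Complex.I * t + 1 / 2) = expB t * ez χ hχ (1 / 2) := by
    ext h
    rw [BoundedContinuousFunction.mul_apply, b_ez, b_ez, P132.expB_apply, ← mul_assoc,
      ← Complex.exp_add]
    congr 2
    push_cast
    ring
  rw [ev, h1, map_mul]
  rfl

theorem ev_lo (E : ModData M ξ) (χ : ℝ →ᵇ ℂ) (hχ : HasCompactSupport χ) (y : H) (t : ℝ) :
    ev E χ hχ y (t + Complex.I / 2) = E.U t (E.Th χ y) := by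
  have h1 : ez χ hχ (Complex.I * (t + Complex.I / 2) + 1 / 2) = expB t * χ := by
    ext h
    rw [BoundedContinuousFunction.mul_apply, b_ez, P132.expB_apply]
    congr 2
    have h2 : Complex.I * Complex.I = -1 := Complex.I_mul_I
    push_cast
    linear_combination (h / 2 : ℂ) * h2
  rw [ev, h1, map_mul]
  rfl

/-- The unitary group `W`. -/
def Wg (E : ModData M ξ) (V : ℝ → H → H) (t : ℝ) (x : H) : H := E.U (-t) (V t x)

theorem Wg_Th (E : ModData M ξ) (h : IsMod M ξ V J) (t : ℝ) (F : ℝ →ᵇ ℂ) (x : H) :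
    Wg E V t (E.Th F x) = E.Th F (Wg E V t x) := by
  have h1 : E.U (-t) * E.Th F = E.Th F * E.U (-t) := by
    show E.Th (expB (-t)) * E.Th F = E.Th F * E.Th (expB (-t))
    rw [← map_mul, ← map_mul, mul_comm]
  show E.U (-t) (V t (E.Th F x)) = E.Th F (E.U (-t) (V t x))
  rw [(nat E h t).1]
  exact congrArg (fun A : H →L[ℂ] H => A (V t x)) h1

theorem hyW (E : ModData M ξ) (h : IsMod M ξ V J) : Hy (Wg E V) (fun x => J (E.J x)) where
  inn t x y := by
    show inner ℂ (E.U (-t) (V t x)) (E.U (-t) (V t y)) = _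
    rw [E.inner_U_U, h.inn]
  add s t x := by
    show E.U (-(s + t)) (V (s + t) x) = E.U (-s) (V s (E.U (-t) (V t x)))
    have h1 : V s (E.U (-t) (V t x)) = E.U (-t) (V s (V t x)) := (nat E h s).1 _ _
    rw [h1, neg_add, E.U_add_apply, h.add]
  tin x y := by rw [h.jinn, E.inner_J_J]

theorem inner_U_V (E : ModData M ξ) (t : ℝ) (a b : H) :
    inner ℂ (E.U t a) (V t b) = inner ℂ a (Wg E V t b) := by
  rw [← E.inner_U_U (-t) (E.U t a) (V t b), E.U_neg_apply]
  rfl

/-- **Uniqueness of the modular unitaries.** -/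
theorem isMod_unique (E : ModData M ξ) (h : IsMod M ξ V J) (t : ℝ) (x : H) :
    V t x = E.U t x := by
  have hK : Dense {k : H | ∃ X ∈ M, E.J (star X ξ) = k} := by
    have hsurj : Function.Surjective E.J := fun x => ⟨E.J x, E.J_J x⟩
    refine (hsurj.denseRange.dense_image E.J.continuous E.cyc).mono ?_
    rintro _ ⟨ζ, ⟨a, ha, rfl⟩, rfl⟩
    exact ⟨star a, star_mem ha, by rw [star_star]⟩
  have hY : Dense {y : H | ∃ χ : ℝ →ᵇ ℂ, HasCompactSupport χ ∧ ∃ y₀, E.Th χ y₀ = y} := by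
    intro ζ
    rw [Metric.mem_closure_iff]
    intro ε hε
    obtain ⟨F, hF, -, hF'⟩ := E.Th_nondeg ζ ε hε
    exact ⟨_, ⟨F, hF, ζ, rfl⟩, by rwa [dist_comm, dist_eq_norm]⟩
  have htriv := triv (hyW E h) hK hY ?_ t x
  · have h1 : E.U t (E.U (-t) (V t x)) = E.U t x := congrArg (E.U t) htriv
    rwa [E.U_apply_neg] at h1
  · rintro _ ⟨X, hX, rfl⟩ _ ⟨χ, hχ, y₀, rfl⟩
    obtain ⟨F, hdc, hle, hadd, hsm, hv⟩ := kmsF h hX
    refine ⟨fun z => F (ev E χ hχ y₀ ((starRingEnd ℂ) z)) z,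
      prod hdc hle hadd hsm (ev_diff E χ hχ y₀), ?_, fun t => ?_, fun t => ?_⟩
    · obtain ⟨C, hC⟩ := ev_bd E χ hχ y₀
      refine ⟨(‖X ξ‖ + ‖star X ξ‖) * C, fun z hz hz' => ?_⟩
      exact (hle _ z hz hz').trans (mul_le_mul_of_nonneg_left (hC z hz hz') (by positivity))
    · show F (ev E χ hχ y₀ ((starRingEnd ℂ) (t : ℂ))) t = _
      rw [Complex.conj_ofReal, ev_re, (hv _ t).1, inner_U_V, Th_adj, ← Wg_Th E h]
      have h1 : E.Th (star χ) (E.J (star X ξ)) = E.Th (star (ez χ hχ (1 / 2))) (X ξ) := by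
        refine E.kms X hX _ _ fun u => ?_
        show (starRingEnd ℂ) (ez χ hχ (1 / 2) u) = Real.exp (u / 2) * (starRingEnd ℂ) (χ u)
        rw [b_ez, map_mul, ← Complex.exp_conj]
        congr 1
        rw [Complex.ofReal_exp]
        congr 1
        have h3 : (starRingEnd ℂ) (1 / 2 : ℂ) = 1 / 2 := by
          rw [map_div₀, map_one, map_ofNat]
        rw [map_mul, h3, Complex.conj_ofReal]
        push_cast
        ring
      rw [← h1, Wg_Th E h, ← Th_adj]
    · have h2 : (starRingEnd ℂ) ((t : ℂ) - Complex.I / 2) = t + Complex.I / 2 := by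
        rw [map_sub, Complex.conj_ofReal, map_div₀, Complex.conj_I, map_ofNat]
        ring
      show F (ev E χ hχ y₀ ((starRingEnd ℂ) ((t : ℂ) - Complex.I / 2))) _ = _
      rw [h2, ev_lo, (hv _ t).2, inner_U_V, E.J_J]

end

end Vale.Agent.P352.BW.H48
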